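import Vale.Agent.P181.TR.H248.CoreAll
import Vale.Agent.P181.TR.H410.T9R
import Vale.Agent.P181.TR.H850.TLX
import Vale.Agent.P181.TL.H797.FinalP
import Vale.Agent.P181.FD.H422.All
import Vale.Agent.P181.H467.NT.All
import Vale.Agent.P181.PLX.Main

set_option autoImplicit false

/-!
# P181, TR: the closed theorems of the line TR
-/

namespace Vale.Agent.P181.TR.H248

open Vale.Agent.P181.TR

/-- **(R8)** without hypotheses. -/
theorem twoLongR_closed : TwoLongR :=
  H410.twoLongR_of coreR_closed TL.H797.plh_closed TL.H797.fewH_closed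

/-- **(R9)** every shape with a dominating first row, `b ≥ 5 a`. -/
theorem tlx_closed : TLX :=
  H850.tlx FD.fatLog H467.NT.linS PLX.polyS TL.H797.twoLongPA_closed twoLongR_closed

end Vale.Agent.P181.TR.H248
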