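import Vale.Agent.P181.TR.Defs
import Vale.Agent.P181.TL.H248.LiftC

set_option autoImplicit false

/-!
# P181, TR (R1b): the iterated border
-/

open MvPolynomial

namespace Vale.Agent.P181.TR.H248

open Vale.Agent.P181.T4 (HW rowOp rowOp_apply rowOp_leibniz rowOp_var mem_HW)
open Vale.Agent.P181.SZR2a (rowOp_aeval)
open Vale.Agent.P181.TL (KK)
open Vale.Agent.P181.TL.H248 (Qm Qm_spec quo_props monomial_EN EN yy)

/-- Renaming the columns. -/
lemma KK_rename {m : ℕ} {σ σ' : Type} [Fintype σ] [Fintype σ'] (e : σ ≃ σ') {d : σ → ℕ}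
    {d' : σ' → ℕ} (hd : ∀ x, d' (e x) = d x) {mu : Fin m → ℕ} {f : MvPolynomial (Fin m × σ) ℂ}
    (hf : f ∈ KK m σ d mu) :
    rename (fun p : Fin m × σ => (p.1, e p.2)) f ∈ KK m σ' d' mu := by
  classical
  have hinj : Function.Injective (fun p : Fin m × σ => (p.1, e p.2)) := by
    rintro ⟨i, x⟩ ⟨i', x'⟩ h
    simp only [Prod.mk.injEq, EmbeddingLike.apply_eq_iff_eq] at h
    exact Prod.ext h.1 h.2
  have key : ∀ v, coeff v (rename (fun p : Fin m × σ => (p.1, e p.2)) f) ≠ 0 →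
      ∃ u, coeff u f ≠ 0 ∧ ∀ i x, v (i, e x) = u (i, x) := by
    intro v hv
    obtain ⟨u, hu, hu'⟩ := coeff_rename_ne_zero _ _ _ hv
    refine ⟨u, hu', fun i x => ?_⟩
    rw [← hu]
    exact Finsupp.mapDomain_apply hinj u (i, x)
  refine ⟨⟨fun v hv i => ?_, fun s i hsi => ?_⟩, fun v hv y => ?_⟩
  · obtain ⟨u, hu, h⟩ := key v hv
    rw [← Equiv.sum_comp e, ← hf.1.1 u hu i]
    exact Finset.sum_congr rfl fun x _ => h i x
  · have h1 : rowOp s i (aeval (fun p : Fin m × σ =>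
        (X (p.1, e p.2) : MvPolynomial (Fin m × σ') ℂ)) f) =
        aeval (fun p : Fin m × σ => (X (p.1, e p.2) : MvPolynomial (Fin m × σ') ℂ))
          (rowOp s i f) := by
      refine rowOp_aeval _ (fun p => ?_) f
      rw [rowOp_var, rowOp_var]
      by_cases hp : p.1 = i
      · rw [if_pos hp, if_pos hp, aeval_X]
      · rw [if_neg hp, if_neg hp, map_zero]
    rw [hf.1.2 s i hsi, map_zero] at h1
    have h2 : rename (fun p : Fin m × σ => (p.1, e p.2)) f =
        aeval (fun p : Fin m × σ => (X (p.1, e p.2) : MvPolynomial (Fin m × σ') ℂ)) f := by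
      have h3 : rename (R := ℂ) (fun p : Fin m × σ => (p.1, e p.2)) =
          aeval (fun p : Fin m × σ => (X (p.1, e p.2) : MvPolynomial (Fin m × σ') ℂ)) := by
        apply MvPolynomial.algHom_ext
        intro p
        rw [rename_X, aeval_X]
      rw [h3]
    rw [h2]
    exact h1
  · obtain ⟨u, hu, h⟩ := key v hv
    obtain ⟨x, rfl⟩ := e.surjective y
    rw [hd, ← hf.2 u hu x]
    exact Finset.sum_congr rfl fun i _ => h i x

/-- One border. -/
lemma bord1 {k : ℕ} {σ : Type} [Fintype σ] (c : σ → ℕ) (tau : Fin (k + 1) → ℕ)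
    (hc : ∑ j, c j = ∑ i, tau i) :
    ∃ Ψ : KK (k + 1) σ c tau →ₗ[ℂ] MvPolynomial (Fin (k + 2) × (σ ⊕ Unit)) ℂ,
      (∀ F, Ψ F ∈ KK (k + 2) (σ ⊕ Unit) (Sum.elim c (fun _ => tau 0)) (Fin.cons (tau 0) tau)) ∧
      ∀ (R : Type) [CommRing R] [Algebra ℂ R]
        (φ : MvPolynomial (Fin (k + 2) × (σ ⊕ Unit)) ℂ →ₐ[ℂ] R),
        φ (X (0, Sum.inr ())) = 1 → (∀ i : Fin (k + 1), φ (X (i.succ, Sum.inr ())) = 0) → ∀ F,
        φ (Ψ F) = aeval (fun p : Fin (k + 1) × σ => φ (X (p.1.succ, Sum.inl p.2)))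
          (F : MvPolynomial (Fin (k + 1) × σ) ℂ) := by
  refine ⟨Qm, fun F => ?_, fun R _ _ φ h1 h2 F => ?_⟩
  · obtain ⟨h1, h2, -⟩ := quo_props hc F.2 (Qm_spec F)
    exact ⟨h1, h2⟩
  · have h3 := congrArg φ (Qm_spec F)
    rw [map_mul, monomial_EN, map_pow, h1, one_pow, one_mul] at h3
    rw [← h3]
    have h4 : φ.comp (aeval (yy (k := k + 1) (fun _ : σ => ()))) =
        aeval (fun p : Fin (k + 1) × σ => φ (X (p.1.succ, Sum.inl p.2))) := by
      apply MvPolynomial.algHom_ext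
      intro p
      rw [AlgHom.comp_apply, aeval_X, aeval_X, yy, map_sub, map_mul, map_mul, h1, h2, one_mul,
        zero_mul, sub_zero]
    exact (DFunLike.congr_fun h4 _)

lemma bord1' {m : ℕ} (hm : 0 < m) {σ : Type} [Fintype σ] (c : σ → ℕ) (tau : Fin m → ℕ)
    (hc : ∑ j, c j = ∑ i, tau i) :
    ∃ Ψ : KK m σ c tau →ₗ[ℂ] MvPolynomial (Fin (m + 1) × (σ ⊕ Unit)) ℂ,
      (∀ F, Ψ F ∈ KK (m + 1) (σ ⊕ Unit) (Sum.elim c (fun _ => tau ⟨0, hm⟩))
        (Fin.cons (tau ⟨0, hm⟩) tau)) ∧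
      ∀ (R : Type) [CommRing R] [Algebra ℂ R]
        (φ : MvPolynomial (Fin (m + 1) × (σ ⊕ Unit)) ℂ →ₐ[ℂ] R),
        φ (X (0, Sum.inr ())) = 1 → (∀ i : Fin m, φ (X (i.succ, Sum.inr ())) = 0) → ∀ F,
        φ (Ψ F) = aeval (fun p : Fin m × σ => φ (X (p.1.succ, Sum.inl p.2)))
          (F : MvPolynomial (Fin m × σ) ℂ) := by
  obtain ⟨k, rfl⟩ := Nat.exists_eq_succ_of_ne_zero hm.ne'
  exact bord1 c tau hc

/-- The weight after `r` borders. -/
def WW {k : ℕ} (r : ℕ) (tau : Fin (k + 1) → ℕ) : Fin (k + 1 + r) → ℕ :=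
  fun i => if (i : ℕ) < r then tau 0 else tau ⟨(i : ℕ) - r, by omega⟩

lemma sum_WW {k : ℕ} (r : ℕ) (tau : Fin (k + 1) → ℕ) :
    ∑ i, WW r tau i = r * tau 0 + ∑ i, tau i := by
  induction r with
  | zero =>
    rw [zero_mul, zero_add]
    refine Finset.sum_congr rfl fun i _ => ?_
    simp [WW]
  | succ r ih =>
    have h1 : ∑ i, WW (r + 1) tau i = WW (r + 1) tau 0 + ∑ i : Fin (k + 1 + r),
        WW (r + 1) tau i.succ := Fin.sum_univ_succ _
    have h2 : WW (r + 1) tau 0 = tau 0 := by simp [WW]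
    have h3 : ∀ i : Fin (k + 1 + r), WW (r + 1) tau i.succ = WW r tau i := by
      intro i
      simp only [WW, Fin.val_succ, Nat.add_lt_add_iff_right, Nat.add_sub_add_right]
    rw [h1, h2, Finset.sum_congr rfl fun i _ => h3 i, ih]
    ring

/-- The equivalence of the columns. -/
def eqv (ι : Type) (r : ℕ) : (ι ⊕ Fin r) ⊕ Unit ≃ ι ⊕ Fin (r + 1) where
  toFun := Sum.elim (Sum.map id Fin.succ) (fun _ => Sum.inr 0)
  invFun := Sum.elim (fun j => Sum.inl (Sum.inl j))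
    (fun l => Fin.cases (motive := fun _ => (ι ⊕ Fin r) ⊕ Unit) (Sum.inr ())
      (fun l => Sum.inl (Sum.inr l)) l)
  left_inv := by
    rintro ((j | l) | u)
    · rfl
    · simp
    · rfl
  right_inv := by
    rintro (j | l)
    · rfl
    · refine Fin.cases ?_ (fun l => ?_) l
      · rfl
      · simp

/-- **(R1b)** the iterated border. -/
theorem bord {k : ℕ} {ι : Type} [Fintype ι] (c : ι → ℕ) (tau : Fin (k + 1) → ℕ)
    (hc : ∑ j, c j = ∑ i, tau i) (r : ℕ) :
    ∃ Ψ : KK (k + 1) ι c tau →ₗ[ℂ] MvPolynomial (Fin (k + 1 + r) × (ι ⊕ Fin r)) ℂ,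
      (∀ F, Ψ F ∈ KK (k + 1 + r) (ι ⊕ Fin r) (Sum.elim c (fun _ => tau 0)) (WW r tau)) ∧
      ∀ (R : Type) [CommRing R] [Algebra ℂ R]
        (φ : MvPolynomial (Fin (k + 1 + r) × (ι ⊕ Fin r)) ℂ →ₐ[ℂ] R),
        (∀ (i : Fin (k + 1 + r)) (l : Fin r),
          φ (X (i, Sum.inr l)) = if (i : ℕ) = l then 1 else 0) → ∀ F,
        φ (Ψ F) = aeval (fun p : Fin (k + 1) × ι =>
          φ (X (⟨r + (p.1 : ℕ), by omega⟩, Sum.inl p.2))) (F : MvPolynomial (Fin (k + 1) × ι) ℂ) := by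
  classical
  induction r with
  | zero =>
    refine ⟨(rename (fun p : Fin (k + 1) × ι => (p.1, (Sum.inl p.2 : ι ⊕ Fin 0)))).toLinearMap ∘ₗ
      (KK (k + 1) ι c tau).subtype, fun F => ?_, fun R _ _ φ hφ F => ?_⟩
    · have h1 := KK_rename (Equiv.sumEmpty ι (Fin 0)).symm (d := c)
        (d' := Sum.elim c (fun _ => tau 0)) (fun x => rfl) F.2
      have h2 : WW 0 tau = tau := by
        funext i
        simp [WW]
      rw [h2]
      exact h1
    · change φ (rename _ (F : MvPolynomial (Fin (k + 1) × ι) ℂ)) = _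
      have h3 : φ.comp (rename (fun p : Fin (k + 1) × ι => (p.1, (Sum.inl p.2 : ι ⊕ Fin 0)))) =
          aeval (fun p : Fin (k + 1) × ι =>
            φ (X (⟨0 + (p.1 : ℕ), by omega⟩, Sum.inl p.2))) := by
        apply MvPolynomial.algHom_ext
        intro p
        rw [AlgHom.comp_apply, rename_X, aeval_X]
        congr 3
        exact Fin.ext (zero_add _).symm
      exact DFunLike.congr_fun h3 _
  | succ r ih =>
    obtain ⟨Ψ, hΨ, hev⟩ := ih
    have hc' : ∑ x, (Sum.elim c (fun _ => tau 0) : ι ⊕ Fin r → ℕ) x = ∑ i, WW r tau i := by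
      rw [sum_WW, Fintype.sum_sum_type]
      simp [hc, add_comm]
    have hm : 0 < k + 1 + r := by omega
    obtain ⟨Ψ', hΨ', hev'⟩ := bord1' hm (Sum.elim c (fun _ => tau 0) : ι ⊕ Fin r → ℕ)
      (WW r tau) hc'
    have hW0 : WW r tau ⟨0, hm⟩ = tau 0 := by
      simp only [WW]
      split_ifs with h
      · rfl
      · congr 1
        exact Fin.ext (Nat.zero_sub r)
    refine ⟨(rename (fun p : Fin (k + 1 + r + 1) × ((ι ⊕ Fin r) ⊕ Unit) =>
      (p.1, eqv ι r p.2))).toLinearMap ∘ₗ Ψ' ∘ₗ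
        (Ψ.codRestrict (KK (k + 1 + r) (ι ⊕ Fin r) (Sum.elim c (fun _ => tau 0)) (WW r tau)) hΨ),
      fun F => ?_, fun R _ _ φ hφ F => ?_⟩
    · have h1 := hΨ' (⟨Ψ F, hΨ F⟩)
      have h2 : (Fin.cons (WW r tau ⟨0, hm⟩) (WW r tau) : Fin (k + 1 + r + 1) → ℕ) =
          WW (r + 1) tau := by
        funext i
        refine Fin.cases ?_ (fun i => ?_) i
        · rw [Fin.cons_zero, hW0]
          simp [WW]
        · rw [Fin.cons_succ]
          simp only [WW, Fin.val_succ, Nat.add_lt_add_iff_right, Nat.add_sub_add_right]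
      rw [h2] at h1
      refine KK_rename (eqv ι r) (fun x => ?_) h1
      rcases x with (j | l) | u
      · rfl
      · rfl
      · exact hW0.symm
    · change φ (rename _ (Ψ' ⟨Ψ F, hΨ F⟩)) = _
      have h1 := hev' R (φ.comp (rename (fun p : Fin (k + 1 + r + 1) × ((ι ⊕ Fin r) ⊕ Unit) =>
        (p.1, eqv ι r p.2)))) (by
          rw [AlgHom.comp_apply, rename_X]
          exact (hφ 0 0).trans (if_pos rfl)) (fun i => by
          rw [AlgHom.comp_apply, rename_X]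
          refine (hφ i.succ 0).trans (if_neg ?_)
          simp) (⟨Ψ F, hΨ F⟩)
      rw [AlgHom.comp_apply] at h1
      rw [h1]
      have h2 := hev R (aeval (fun p : Fin (k + 1 + r) × (ι ⊕ Fin r) =>
        φ (X (p.1.succ, Sum.map id Fin.succ p.2)))) (fun i l => by
          rw [aeval_X]
          refine (hφ i.succ l.succ).trans ?_
          simp only [Fin.val_succ, Nat.add_right_cancel_iff]) F
      refine Eq.trans ?_ (h2.trans ?_)
      · congr 2
        funext p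
        rw [AlgHom.comp_apply, rename_X]
        rfl
      · congr 2
        funext p
        rw [aeval_X]
        simp only [Sum.map_inl, id]
        congr 3
        apply Fin.ext
        simp only [Fin.val_succ]
        omega

end Vale.Agent.P181.TR.H248
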