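import Vale.Agent.P181.TR.H248.LiftR
import Vale.Agent.P181.TR.H935.Key
import Vale.Agent.P181.TR.H119.HeadR
import Vale.Agent.P181.TR.H307.LowR
import Vale.Agent.P181.TR.H283.Up
import Vale.Agent.P181.TR.H118.Grow
import Vale.Agent.P181.TR.H797.CoreR
import Vale.Agent.P181.TL.H353.Ref
import Vale.Agent.P181.TL.H639.BalB
import Vale.Agent.P181.SZR2.Lower
import Vale.Agent.P181.SZT0.Tr

set_option autoImplicit false

/-!
# P181, TR: the closed core
-/

namespace Vale.Agent.P181.TR.H248

open Vale.Agent.P181.TR

/-- Lower bound, no hypothesis. -/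
theorem lowR_closed : LowR :=
  H307.lowR TL.H353.refB liftR H935.keyR H119.headR SZR2.lowerS SZT0.transS

/-- **(R7)** without hypotheses. -/
theorem coreR_closed : CoreR := H797.coreR H283.upR TL.H639.balB lowR_closed H118.growR

end Vale.Agent.P181.TR.H248
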