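import Vale.Agent.P181.TR.H248.Bord
import Vale.Agent.P181.BL.Defs

set_option autoImplicit false

/-!
# P181, TR (R1): one labelled tail polynomial
-/

open MvPolynomial

namespace Vale.Agent.P181.TR.H248

open Vale.Agent.P181.T4 (HW rowOp rowOp_apply rowOp_leibniz rowOp_var rowOp_C mem_HW)
open Vale.Agent.P181.TL (KK)
open Vale.Agent.P181.TL.H248 (AG Pg coeff_Pg collapse)
open Vale.Agent.P181.SZ.R1b (coeff_cmp cmp_rowOp cdeg)
open Vale.Agent.P181.DG6.H887 (lsub lsub_X lsub_mem_HW)
open Vale.Agent.P181.TR (tp ta)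

section algebra

variable {m : ℕ} {σ : Type} [Fintype σ]

lemma KK_mul {d d' : σ → ℕ} {mu mu' : Fin m → ℕ} {f g : MvPolynomial (Fin m × σ) ℂ}
    (hf : f ∈ KK m σ d mu) (hg : g ∈ KK m σ d' mu') : f * g ∈ KK m σ (d + d') (mu + mu') := by
  classical
  have key : ∀ v, coeff v (f * g) ≠ 0 → ∃ v1 v2, v1 + v2 = v ∧ coeff v1 f ≠ 0 ∧ coeff v2 g ≠ 0 := by
    intro v hv
    rw [coeff_mul] at hv
    obtain ⟨x, hx, hx'⟩ := Finset.exists_ne_zero_of_sum_ne_zero hv
    exact ⟨x.1, x.2, Finset.HasAntidiagonal.mem_antidiagonal.1 hx, left_ne_zero_of_mul hx',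
      right_ne_zero_of_mul hx'⟩
  refine ⟨⟨fun v hv i => ?_, fun s i hsi => ?_⟩, fun v hv y => ?_⟩
  · obtain ⟨v1, v2, rfl, h1, h2⟩ := key v hv
    rw [Pi.add_apply, ← hf.1.1 v1 h1 i, ← hg.1.1 v2 h2 i, ← Finset.sum_add_distrib]
    rfl
  · rw [rowOp_leibniz, hf.1.2 s i hsi, hg.1.2 s i hsi, zero_mul, mul_zero, add_zero]
  · obtain ⟨v1, v2, rfl, h1, h2⟩ := key v hv
    rw [Pi.add_apply, ← hf.2 v1 h1 y, ← hg.2 v2 h2 y, ← Finset.sum_add_distrib]
    rfl

lemma KK_one : (1 : MvPolynomial (Fin m × σ) ℂ) ∈ KK m σ 0 0 := by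
  classical
  have key : ∀ v, coeff v (1 : MvPolynomial (Fin m × σ) ℂ) ≠ 0 → v = 0 := by
    intro v hv
    rw [coeff_one] at hv
    by_contra h
    exact hv (if_neg (Ne.symm h))
  refine ⟨⟨fun v hv i => ?_, fun s i _ => ?_⟩, fun v hv y => ?_⟩
  · rw [key v hv]
    simp
  · rw [← C_1]
    exact rowOp_C _ _ _
  · rw [key v hv]
    simp

lemma KK_pow {d : σ → ℕ} {mu : Fin m → ℕ} {f : MvPolynomial (Fin m × σ) ℂ}
    (hf : f ∈ KK m σ d mu) (n : ℕ) : f ^ n ∈ KK m σ (n • d) (n • mu) := by
  induction n with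
  | zero =>
    rw [pow_zero, zero_smul, zero_smul]
    exact KK_one
  | succ n ih =>
    rw [pow_succ, succ_nsmul, succ_nsmul]
    exact KK_mul ih hf

lemma KK_prod {κ : Type} (t : Finset κ) {d : κ → σ → ℕ} {mu : κ → Fin m → ℕ}
    {f : κ → MvPolynomial (Fin m × σ) ℂ} (hf : ∀ i ∈ t, f i ∈ KK m σ (d i) (mu i)) :
    ∏ i ∈ t, f i ∈ KK m σ (∑ i ∈ t, d i) (∑ i ∈ t, mu i) := by
  classical
  induction t using Finset.induction_on with
  | empty =>
    rw [Finset.prod_empty, Finset.sum_empty, Finset.sum_empty]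
    exact KK_one
  | insert i t hi ih =>
    rw [Finset.prod_insert hi, Finset.sum_insert hi, Finset.sum_insert hi]
    exact KK_mul (hf i (Finset.mem_insert_self _ _))
      (ih fun j hj => hf j (Finset.mem_insert_of_mem hj))

end algebra

/-- The minor of the top rows and the columns `κ`. -/
noncomputable def Mn {m q : ℕ} {σ : Type} (h : q ≤ m) (κ : Fin q → σ) :
    MvPolynomial (Fin m × σ) ℂ :=
  Matrix.det (fun i l : Fin q => (X (Fin.castLE h i, κ l) : MvPolynomial (Fin m × σ) ℂ))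

lemma Mn_mem (hMin : BL.MinR) {m q : ℕ} {σ : Type} [Fintype σ] [DecidableEq σ] (h : q ≤ m)
    (κ : Fin q → σ) : Mn h κ ∈ KK m σ (fun x => (Finset.univ.filter fun l => κ l = x).card)
      (fun i => if (i : ℕ) < q then 1 else 0) :=
  ⟨(hMin m q σ h κ).1, (hMin m q σ h κ).2⟩

/-- Evaluation of minors. -/
lemma map_Mn {m q : ℕ} {σ : Type} (h : q ≤ m) (κ : Fin q → σ) {R : Type} [CommRing R] [Algebra ℂ R]
    (φ : MvPolynomial (Fin m × σ) ℂ →ₐ[ℂ] R) :
    φ (Mn h κ) = Matrix.det (fun i l : Fin q => φ (X (Fin.castLE h i, κ l))) := by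
  exact AlgHom.map_det φ (Matrix.of fun i l : Fin q =>
    (X (Fin.castLE h i, κ l) : MvPolynomial (Fin m × σ) ℂ))

/-- Telescoping. -/
lemma tele (T : ℕ → ℕ) (hT : ∀ n, T (n + 1) ≤ T n) (r l : ℕ) (hl : l ≤ r) :
    ∑ i : Fin r, (if l ≤ (i : ℕ) then T i - T (i + 1) else 0) + T r = T l := by
  induction r, hl using Nat.le_induction with
  | base =>
    rw [Finset.sum_eq_zero, zero_add]
    intro i _
    rw [if_neg (by omega)]
  | succ r hr ih =>
    rw [Fin.sum_univ_castSucc]
    simp only [Fin.val_castSucc, Fin.val_last]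
    rw [if_pos hr]
    have := hT r
    omega

section frame

variable {k r : ℕ} {ι : Type} [Fintype ι]

/-- The head evaluation. -/
noncomputable def ph (k r : ℕ) (ι : Type) :
    MvPolynomial (Fin (k + 1 + r) × (ι ⊕ Fin r)) ℂ →ₐ[ℂ] MvPolynomial (Fin (k + 1 + r) × ι) ℂ :=
  aeval fun q => Sum.elim (fun j => X (q.1, j)) (fun l => if (q.1 : ℕ) = l then 1 else 0) q.2

/-- The monomial of the labels. -/
noncomputable def lb (k : ℕ) {r : ℕ} {ι : Type} [Fintype ι] (α : ι → Fin r → ℕ) :
    MvPolynomial (Fin (k + 1 + r) × ι) ℂ :=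
  ∏ j, ∏ l : Fin r, X (⟨(l : ℕ), by omega⟩, j) ^ α j l

/-- The lower rows. -/
def ro {k : ℕ} (r : ℕ) (i : Fin (k + 1)) : Fin (k + 1 + r) := ⟨r + (i : ℕ), by omega⟩

lemma hrm (k r : ℕ) : r ≤ k + 1 + r := by omega

lemma him {k r : ℕ} (i : Fin r) : (i : ℕ) + 1 ≤ k + 1 + r := by omega

/-- **the frame polynomial.** -/
theorem frame (hMin : BL.MinR) (s : ι → ℕ) (mu : Fin (k + 1 + r) → ℕ) (α : ι → Fin r → ℕ)
    (c : ι → ℕ) (hmono : ∀ l l' : Fin r, l ≤ l' → tp mu l' ≤ tp mu l)
    (hs : ∀ j, ∑ l, α j l + c j = s j) (hc : ∑ j, c j = ∑ i, ta mu i)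
    (hM : ∀ l : Fin r, ∑ j, ∑ l', α j l' + ta mu 0 ≤ tp mu l) (P : Fin r → ℕ)
    (hP : ∀ l, ∑ j, α j l + P l = tp mu l) :
    ∃ Ψ : KK (k + 1) ι c (ta mu) →ₗ[ℂ] MvPolynomial (Fin (k + 1 + r) × (ι ⊕ Fin r)) ℂ,
      (∀ F, Ψ F ∈ KK (k + 1 + r) (ι ⊕ Fin r) (Sum.elim s P) mu) ∧
      ∀ F, ph k r ι (Ψ F) = lb k α * rename (fun q : Fin (k + 1) × ι => (ro r q.1, q.2))
        (F : MvPolynomial (Fin (k + 1) × ι) ℂ) := by
  classical
  obtain ⟨B, hB, hev⟩ := bord c (ta mu) hc r
  set M := ∑ j, ∑ l', α j l' with hMdef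
  -- the telescoping function
  let T : ℕ → ℕ := fun n => if h : n < r then tp mu ⟨n, h⟩ else M + ta mu 0
  have hT : ∀ n, T (n + 1) ≤ T n := by
    intro n
    simp only [T]
    by_cases h1 : n + 1 < r
    · rw [dif_pos h1, dif_pos (by omega)]
      exact hmono _ _ (by simp)
    · rw [dif_neg h1]
      by_cases h2 : n < r
      · rw [dif_pos h2]
        exact hM _
      · rw [dif_neg h2]
  let dD : ι → Fin r → MvPolynomial (Fin (k + 1 + r) × (ι ⊕ Fin r)) ℂ := fun j l =>
    Mn (hrm k r) (Function.update (fun l' : Fin r => (Sum.inr l' : ι ⊕ Fin r)) l (Sum.inl j))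
  let dE : Fin r → MvPolynomial (Fin (k + 1 + r) × (ι ⊕ Fin r)) ℂ := fun i =>
    Mn (him i) (fun l' : Fin ((i : ℕ) + 1) => (Sum.inr ⟨l', by omega⟩ : ι ⊕ Fin r))
  let Q : MvPolynomial (Fin (k + 1 + r) × (ι ⊕ Fin r)) ℂ :=
    (∏ j, ∏ l, dD j l ^ α j l) * ∏ i : Fin r, dE i ^ (T i - T (i + 1))
  have hQ : Q ∈ KK (k + 1 + r) (ι ⊕ Fin r)
      ((∑ j, ∑ l, α j l • (fun x => (Finset.univ.filter fun l₁ => Function.update
        (fun l' : Fin r => (Sum.inr l' : ι ⊕ Fin r)) l (Sum.inl j) l₁ = x).card)) +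
        ∑ i : Fin r, (T i - T (i + 1)) • (fun x => (Finset.univ.filter
          fun l' : Fin ((i : ℕ) + 1) => (Sum.inr ⟨l', by omega⟩ : ι ⊕ Fin r) = x).card))
      ((∑ j, ∑ l, α j l • (fun i' : Fin (k + 1 + r) => if (i' : ℕ) < r then 1 else 0)) +
        ∑ i : Fin r, (T i - T (i + 1)) •
          (fun i' : Fin (k + 1 + r) => if (i' : ℕ) < (i : ℕ) + 1 then 1 else 0)) := by
    refine KK_mul (KK_prod _ fun j _ => KK_prod _ fun l _ => KK_pow (Mn_mem hMin _ _) _)
      (KK_prod _ fun i _ => KK_pow (Mn_mem hMin _ _) _)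
  have hdeg : ((∑ j, ∑ l, α j l • (fun x => (Finset.univ.filter fun l₁ => Function.update
        (fun l' : Fin r => (Sum.inr l' : ι ⊕ Fin r)) l (Sum.inl j) l₁ = x).card)) +
        ∑ i : Fin r, (T i - T (i + 1)) • (fun x => (Finset.univ.filter
          fun l' : Fin ((i : ℕ) + 1) => (Sum.inr ⟨l', by omega⟩ : ι ⊕ Fin r) = x).card)) +
      Sum.elim c (fun _ => ta mu 0) = Sum.elim s P := by
    funext x
    simp only [Pi.add_apply, Finset.sum_apply, Pi.smul_apply, smul_eq_mul]
    rcases x with j₀ | l₀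
    · have h1 : ∀ j l, (Finset.univ.filter fun l₁ : Fin r => Function.update
          (fun l' : Fin r => (Sum.inr l' : ι ⊕ Fin r)) l (Sum.inl j) l₁ = Sum.inl j₀).card =
          if j = j₀ then 1 else 0 := by
        intro j l
        by_cases hj : j = j₀
        · rw [if_pos hj, Finset.card_eq_one]
          refine ⟨l, ?_⟩
          ext l₁
          by_cases hl : l₁ = l
          · subst hl
            simp [hj]
          · simp [hl]
        · rw [if_neg hj, Finset.card_eq_zero]
          ext l₁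
          by_cases hl : l₁ = l
          · subst hl
            simp [hj]
          · simp [hl]
      have h2 : ∀ i : Fin r, (Finset.univ.filter
          fun l' : Fin ((i : ℕ) + 1) => (Sum.inr ⟨l', by omega⟩ : ι ⊕ Fin r) =
            Sum.inl j₀).card = 0 := by
        intro i
        rw [Finset.card_eq_zero]
        ext l'
        simp
      simp only [h1, h2, mul_zero, Finset.sum_const_zero, add_zero, mul_ite, mul_one,
        Sum.elim_inl]
      rw [← hs j₀]
      congr 1
      rw [Finset.sum_eq_single j₀]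
      · simp
      · intro j _ hj
        simp [hj]
      · intro h
        exact absurd (Finset.mem_univ _) h
    · have h1 : ∀ j l, (Finset.univ.filter fun l₁ : Fin r => Function.update
          (fun l' : Fin r => (Sum.inr l' : ι ⊕ Fin r)) l (Sum.inl j) l₁ = Sum.inr l₀).card =
          if l = l₀ then 0 else 1 := by
        intro j l
        by_cases hl : l = l₀
        · rw [if_pos hl, Finset.card_eq_zero]
          ext l₁
          by_cases hl1 : l₁ = l
          · subst hl1
            simp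
          · have : l₁ ≠ l₀ := by rw [← hl]; exact hl1
            simp [hl1, this]
        · rw [if_neg hl, Finset.card_eq_one]
          refine ⟨l₀, ?_⟩
          ext l₁
          by_cases hl1 : l₁ = l
          · subst hl1
            simp [hl]
          · simp [hl1]
      have h2 : ∀ i : Fin r, (Finset.univ.filter
          fun l' : Fin ((i : ℕ) + 1) => (Sum.inr ⟨l', by omega⟩ : ι ⊕ Fin r) =
            Sum.inr l₀).card = if (l₀ : ℕ) ≤ i then 1 else 0 := by
        intro i
        by_cases hi : (l₀ : ℕ) ≤ i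
        · rw [if_pos hi, Finset.card_eq_one]
          refine ⟨⟨l₀, by omega⟩, ?_⟩
          ext l'
          simp [Fin.ext_iff]
        · rw [if_neg hi, Finset.card_eq_zero]
          ext l'
          simp only [Finset.mem_filter, Finset.mem_univ, true_and, Sum.inr.injEq, Fin.ext_iff,
            Finset.notMem_empty, iff_false]
          omega
      simp only [h1, h2, Sum.elim_inr]
      have h3 := tele T hT r l₀ (by omega)
      have h4 : T r = M + ta mu 0 := by simp [T]
      have h5 : T l₀ = tp mu l₀ := by simp [T]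
      rw [h4, h5] at h3
      have h6 : ∑ i : Fin r, (T i - T (i + 1)) * (if (l₀ : ℕ) ≤ i then 1 else 0) =
          ∑ i : Fin r, (if (l₀ : ℕ) ≤ (i : ℕ) then T i - T (i + 1) else 0) := by
        refine Finset.sum_congr rfl fun i _ => ?_
        split_ifs
        · rw [mul_one]
        · rw [mul_zero]
      have h7 : ∑ j, ∑ l, α j l * (if l = l₀ then 0 else 1) + ∑ j, α j l₀ = M := by
        rw [hMdef, ← Finset.sum_add_distrib]
        refine Finset.sum_congr rfl fun j _ => ?_
        have h8 : ∀ l, α j l = α j l * (if l = l₀ then 0 else 1) + if l = l₀ then α j l else 0 := by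
          intro l
          split_ifs
          · rw [mul_zero, zero_add]
          · rw [mul_one, add_zero]
        rw [Finset.sum_congr rfl fun l _ => h8 l, Finset.sum_add_distrib, Finset.sum_ite_eq',
          if_pos (Finset.mem_univ _)]
      have h9 := hP l₀
      rw [h6]
      omega
  have hwt : ((∑ j, ∑ l, α j l • (fun i' : Fin (k + 1 + r) => if (i' : ℕ) < r then 1 else 0)) +
        ∑ i : Fin r, (T i - T (i + 1)) •
          (fun i' : Fin (k + 1 + r) => if (i' : ℕ) < (i : ℕ) + 1 then 1 else 0)) +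
      WW r (ta mu) = mu := by
    funext i₀
    simp only [Pi.add_apply, Finset.sum_apply, Pi.smul_apply, smul_eq_mul]
    by_cases hi : (i₀ : ℕ) < r
    · simp only [if_pos hi, mul_one, WW]
      have h3 := tele T hT r i₀ (by omega)
      have h4 : T r = M + ta mu 0 := by simp [T]
      have h5 : T i₀ = mu i₀ := by simp [T, hi, tp]
      rw [h4, h5] at h3
      have h6 : ∑ i : Fin r, (T i - T (i + 1)) * (if (i₀ : ℕ) < (i : ℕ) + 1 then 1 else 0) =
          ∑ i : Fin r, (if (i₀ : ℕ) ≤ (i : ℕ) then T i - T (i + 1) else 0) := by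
        refine Finset.sum_congr rfl fun i _ => ?_
        by_cases h7 : (i₀ : ℕ) ≤ i
        · rw [if_pos h7, if_pos (by omega), mul_one]
        · rw [if_neg h7, if_neg (by omega), mul_zero]
      rw [h6]
      omega
    · simp only [if_neg hi, mul_zero, Finset.sum_const_zero, zero_add, WW]
      have h6 : ∑ i : Fin r, (T i - T (i + 1)) * (if (i₀ : ℕ) < (i : ℕ) + 1 then 1 else 0) = 0 := by
        refine Finset.sum_eq_zero fun i _ => ?_
        rw [if_neg (by omega), mul_zero]
      rw [h6, zero_add]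
      simp only [ta]
      congr 1
      apply Fin.ext
      simp only
      omega
  refine ⟨(LinearMap.mulLeft ℂ Q) ∘ₗ B, fun F => ?_, fun F => ?_⟩
  · have h1 := KK_mul hQ (hB F)
    rw [hdeg, hwt] at h1
    exact h1
  · change ph k r ι (Q * B F) = _
    rw [map_mul, map_mul]
    have hX : ∀ (i : Fin (k + 1 + r)) (l : Fin r),
        ph k r ι (X (i, Sum.inr l)) = if (i : ℕ) = l then 1 else 0 := by
      intro i l
      rw [ph, aeval_X]
      rfl
    have hXl : ∀ (i : Fin (k + 1 + r)) (j : ι), ph k r ι (X (i, Sum.inl j)) = X (i, j) := by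
      intro i j
      rw [ph, aeval_X]
      rfl
    have h1 : ph k r ι (∏ i : Fin r, dE i ^ (T i - T (i + 1))) = 1 := by
      rw [map_prod]
      refine Finset.prod_eq_one fun i _ => ?_
      rw [map_pow, map_Mn]
      have h2 : (fun i' l' : Fin ((i : ℕ) + 1) => ph k r ι
          (X (Fin.castLE (him i) i', (Sum.inr ⟨l', by omega⟩ : ι ⊕ Fin r)))) =
          (1 : Matrix (Fin ((i : ℕ) + 1)) (Fin ((i : ℕ) + 1)) _) := by
        funext i' l'
        rw [hX, Matrix.one_apply]
        simp only [Fin.val_castLE, Fin.ext_iff]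
      rw [h2, Matrix.det_one, one_pow]
    have h2 : ph k r ι (∏ j, ∏ l, dD j l ^ α j l) = lb k α := by
      rw [map_prod, lb]
      refine Finset.prod_congr rfl fun j _ => ?_
      rw [map_prod]
      refine Finset.prod_congr rfl fun l _ => ?_
      rw [map_pow, map_Mn]
      congr 1
      have h3 : (fun i' l' : Fin r => ph k r ι (X (Fin.castLE (hrm k r) i',
          Function.update (fun l' : Fin r => (Sum.inr l' : ι ⊕ Fin r)) l (Sum.inl j) l'))) =
          (1 : Matrix (Fin r) (Fin r) _).updateCol l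
            (fun i' => X (Fin.castLE (hrm k r) i', j)) := by
        funext i' l'
        by_cases hl : l' = l
        · subst hl
          rw [Function.update_self, hXl, Matrix.updateCol_self]
        · rw [Function.update_of_ne hl, hX, Matrix.updateCol_ne hl, Matrix.one_apply]
          simp only [Fin.val_castLE, Fin.ext_iff]
      rw [h3, ← Matrix.cramer_apply, Matrix.cramer_one]
      rfl
    rw [h1, h2, mul_one, hev _ (ph k r ι) hX F]
    congr 1
    have h3 : (aeval (fun p : Fin (k + 1) × ι => ph k r ι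
        (X (⟨r + (p.1 : ℕ), by omega⟩, Sum.inl p.2)))) =
        rename (R := ℂ) (fun q : Fin (k + 1) × ι => (ro r q.1, q.2)) := by
      apply MvPolynomial.algHom_ext
      intro p
      rw [aeval_X, rename_X, hXl]
      rfl
    rw [h3]

end frame

end Vale.Agent.P181.TR.H248
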