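import Vale.Agent.P181.TR.H248.Frame

set_option autoImplicit false

/-!
# P181, TR (R1): the lift with `r` label rows
-/

open MvPolynomial

namespace Vale.Agent.P181.TR.H248

open Vale.Agent.P181.T4 (HW rowOp rowOp_apply rowOp_leibniz rowOp_var rowOp_C mem_HW)
open Vale.Agent.P181.SZ (PK)
open Vale.Agent.P181.TL (KK)
open Vale.Agent.P181.TL.H248 (AG Pg coeff_Pg collapse St mem_St sym_mem_PK)
open Vale.Agent.P181.SZ.R1b (coeff_cmp cmp_rowOp cdeg)
open Vale.Agent.P181.DG6.H887 (lsub lsub_X lsub_mem_HW)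
open Vale.Agent.P181.DGx.H248
open Vale.Agent.P181.DU.H248 (sb_equiv tr tr_apply coeff_sb_equiv split_equiv pr_inj)
open Vale.Agent.P181.TR (tp ta)

section lift

variable {k r : ℕ} {ι η : Type} [Fintype ι] [Fintype η]

/-- The evaluation of the heads in the groups `g`. -/
noncomputable def fr (k : ℕ) {r : ℕ} {ι η : Type} (g : η → Fin r) :
    MvPolynomial (Fin (k + 1 + r) × (ι ⊕ η)) ℂ →ₐ[ℂ] MvPolynomial (Fin (k + 1 + r) × ι) ℂ :=
  aeval fun q => Sum.elim (fun j => X (q.1, j)) (fun h => if (q.1 : ℕ) = g h then 1 else 0) q.2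

omit [Fintype ι] [Fintype η] in
lemma fr_inl (g : η → Fin r) (i : Fin (k + 1 + r)) (j : ι) :
    fr k g (X (i, Sum.inl j)) = X (i, j) := by
  rw [fr, aeval_X]
  rfl

omit [Fintype ι] [Fintype η] in
lemma fr_inr (g : η → Fin r) (i : Fin (k + 1 + r)) (h : η) :
    fr k g (X (i, (Sum.inr h : ι ⊕ η))) = if (i : ℕ) = g h then 1 else 0 := by
  rw [fr, aeval_X]
  rfl

omit [Fintype ι] [Fintype η] in
lemma fr_collapse (g : η → Fin r) (G : MvPolynomial (Fin (k + 1 + r) × (ι ⊕ η)) ℂ) :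
    fr k g G = ph k r ι (rename (fun p : Fin (k + 1 + r) × (ι ⊕ η) =>
      (p.1, Sum.map (id : ι → ι) g p.2)) G) := by
  have h2 : fr k g = (ph k r ι).comp (rename (R := ℂ)
      (fun p : Fin (k + 1 + r) × (ι ⊕ η) => (p.1, Sum.map (id : ι → ι) g p.2))) := by
    apply MvPolynomial.algHom_ext
    rintro ⟨i, x⟩
    rw [AlgHom.comp_apply, rename_X, ph, aeval_X]
    rcases x with j | h
    · rw [fr_inl]
      rfl
    · rw [fr_inr]
      rfl
  exact DFunLike.congr_fun h2 G

/-- The evaluation commutes with permutations. -/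
lemma fr_sb [DecidableEq ι] [DecidableEq η] (g : η → Fin r) (e : Equiv.Perm (ι ⊕ η)) (τ : ι ≃ ι)
    (ρ : η ≃ η) (he : ∀ x, e.symm x = Sum.map τ ρ x) (hρ : ∀ h, g (ρ h) = g h)
    (G : MvPolynomial (Fin (k + 1 + r) × (ι ⊕ η)) ℂ) :
    fr k g (sb (k + 1 + r) e (fun _ => 1) G) =
      rename (fun q : Fin (k + 1 + r) × ι => (q.1, τ q.2)) (fr k g G) := by
  rw [sb_equiv]
  have h2 : (fr k g).comp (rename (R := ℂ)
      (fun q : Fin (k + 1 + r) × (ι ⊕ η) => (q.1, e.symm q.2))) =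
      (rename (R := ℂ) (fun q : Fin (k + 1 + r) × ι => (q.1, τ q.2))).comp (fr k g) := by
    apply MvPolynomial.algHom_ext
    rintro ⟨i, x⟩
    rw [AlgHom.comp_apply, AlgHom.comp_apply, rename_X]
    simp only [he]
    rcases x with j | h
    · rw [Sum.map_inl, fr_inl, fr_inl, rename_X]
    · rw [Sum.map_inr, fr_inr, fr_inr, hρ]
      split_ifs
      · rw [map_one]
      · rw [map_zero]
  exact DFunLike.congr_fun h2 G

/-- The interface. -/
theorem psiR (hMin : BL.MinR) (g : η → Fin r) (s : ι → ℕ) (p : η → ℕ)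
    (mu : Fin (k + 1 + r) → ℕ) (α : ι → Fin r → ℕ) (c : ι → ℕ)
    (hmono : ∀ l l' : Fin r, l ≤ l' → tp mu l' ≤ tp mu l)
    (hs : ∀ j, ∑ l, α j l + c j = s j) (hc : ∑ j, c j = ∑ i, ta mu i)
    (hM : ∀ l : Fin r, ∑ j, ∑ l', α j l' + ta mu 0 ≤ tp mu l)
    (hp : ∀ l, ∑ j, α j l + ∑ h ∈ Finset.univ.filter (fun h => g h = l), p h = tp mu l) :
    ∃ (m : ℕ) (Ψ : KK (k + 1) ι c (ta mu) →ₗ[ℂ] MvPolynomial (Fin (k + 1 + r) × (ι ⊕ η)) ℂ),
      m ≠ 0 ∧ (∀ F, Ψ F ∈ KK (k + 1 + r) (ι ⊕ η) (Sum.elim s p) mu) ∧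
      ∀ F, fr k g (Ψ F) = (m : ℂ) • (lb k α *
        rename (fun q : Fin (k + 1) × ι => (ro r q.1, q.2))
          (F : MvPolynomial (Fin (k + 1) × ι) ℂ)) := by
  classical
  obtain ⟨Φ, hΦ1, hΦ2⟩ := frame hMin s mu α c hmono hs hc hM
    (fun l => ∑ h ∈ Finset.univ.filter (fun h => g h = l), p h) hp
  let g' : ι ⊕ η → ι ⊕ Fin r := Sum.map id g
  let u : ι ⊕ η → ℕ := Sum.elim s p
  have hg : ∀ x : ι ⊕ Fin r, ∑ t ∈ Finset.univ.filter (fun t => g' t = x), u t =
      Sum.elim s (fun l => ∑ h ∈ Finset.univ.filter (fun h => g h = l), p h) x := by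
    intro x
    rw [Finset.sum_filter, Fintype.sum_sum_type]
    rcases x with j | l
    · rw [Finset.sum_eq_single j, Finset.sum_eq_zero, add_zero]
      · simp [g', u]
      · intro h _
        simp [g']
      · intro j' _ hj
        simp [g', hj]
      · intro h
        exact absurd (Finset.mem_univ _) h
    · rw [Finset.sum_eq_zero (s := (Finset.univ : Finset ι)), zero_add]
      · simp only [g', u, Sum.map_inr, Sum.elim_inr, Sum.inr.injEq]
        rw [Finset.sum_filter]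
      · intro j _
        simp [g']
  refine ⟨coeff (Finsupp.equivFunOnFinite.symm u) (Pg g' (Sum.elim s
      (fun l => ∑ h ∈ Finset.univ.filter (fun h => g h = l), p h))),
    ((SZ.R1b.cmp u).comp (lsub (k + 1 + r) (AG g')).toLinearMap).comp Φ, coeff_Pg hg, ?_, ?_⟩
  · intro F
    have h0 := lsub_mem_HW (AG g') (hΦ1 F).1
    rw [mem_HW] at h0
    refine ⟨⟨fun v hv i => ?_, fun s i hsi => ?_⟩, fun v hv x => ?_⟩
    · change coeff v (SZ.R1b.cmp u (lsub (k + 1 + r) (AG g') (Φ F))) ≠ 0 at hv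
      rw [coeff_cmp] at hv
      by_cases h : cdeg v = u
      · rw [if_pos h] at hv
        exact h0.1 v hv i
      · rw [if_neg h] at hv
        exact absurd rfl hv
    · change rowOp s i (SZ.R1b.cmp u (lsub (k + 1 + r) (AG g') (Φ F))) = 0
      rw [cmp_rowOp, h0.2 s i hsi, map_zero]
    · change coeff v (SZ.R1b.cmp u (lsub (k + 1 + r) (AG g') (Φ F))) ≠ 0 at hv
      rw [coeff_cmp] at hv
      by_cases h : cdeg v = u
      · exact congrFun h x
      · rw [if_neg h] at hv
        exact absurd rfl hv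
  · intro F
    change fr k g (SZ.R1b.cmp u (lsub (k + 1 + r) (AG g') (Φ F))) = _
    rw [fr_collapse]
    have h4 := collapse (g := g') (hΦ1 F).2 u
    rw [h4, map_smul, hΦ2]

/-- The exponent of the labels. -/
noncomputable def lM (k : ℕ) {r : ℕ} {ι : Type} [Fintype ι] (α : ι → Fin r → ℕ) :
    Fin (k + 1 + r) × ι →₀ ℕ :=
  Finsupp.equivFunOnFinite.symm fun q => if h : (q.1 : ℕ) < r then α q.2 ⟨q.1, h⟩ else 0

lemma lM_lt (α : ι → Fin r → ℕ) (l : Fin r) (j : ι) :
    lM k α (⟨(l : ℕ), by omega⟩, j) = α j l := by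
  simp [lM]

lemma lM_ro (α : ι → Fin r → ℕ) (i : Fin (k + 1)) (j : ι) : lM k α (ro r i, j) = 0 := by
  simp [lM, ro]

lemma lb_eq (α : ι → Fin r → ℕ) : lb k α = monomial (lM k α) 1 := by
  classical
  rw [monomial_eq, C_1, one_mul, Finsupp.prod_fintype _ _ (fun i => pow_zero _),
    Fintype.prod_prod_type_right, lb]
  refine Finset.prod_congr rfl fun j _ => ?_
  have h1 : ∏ i : Fin (k + 1 + r), (X (i, j) : MvPolynomial (Fin (k + 1 + r) × ι) ℂ) ^ lM k α (i, j)
      = ∏ i ∈ (Finset.univ : Finset (Fin r)).image (fun l : Fin r => (⟨(l : ℕ), by omega⟩ :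
        Fin (k + 1 + r))), X (i, j) ^ lM k α (i, j) := by
    symm
    refine Finset.prod_subset (Finset.subset_univ _) fun i _ hi => ?_
    have h2 : ¬ (i : ℕ) < r := by
      intro h
      exact hi (Finset.mem_image.2 ⟨⟨i, h⟩, Finset.mem_univ _, rfl⟩)
    have h3 : lM k α (i, j) = 0 := by simp [lM, h2]
    rw [h3, pow_zero]
  rw [h1, Finset.prod_image]
  · refine Finset.prod_congr rfl fun l _ => ?_
    rw [lM_lt]
  · intro l _ l' _ h
    simp only [Fin.mk.injEq] at h
    exact Fin.ext h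

lemma ro_inj : Function.Injective (fun q : Fin (k + 1) × ι => (ro r q.1, q.2)) := by
  rintro ⟨i, x⟩ ⟨i', x'⟩ h
  simp only [Prod.mk.injEq, ro, Fin.mk.injEq] at h
  refine Prod.ext (Fin.ext ?_) h.2
  simp only
  omega

/-- The exponents of a labelled polynomial. -/
lemma labelled {c : ι → ℕ} {tau : Fin (k + 1) → ℕ} (α : ι → Fin r → ℕ)
    {F : MvPolynomial (Fin (k + 1) × ι) ℂ} (hF : F ∈ KK (k + 1) ι c tau)
    (w : Fin (k + 1 + r) × ι →₀ ℕ)
    (hw : coeff w (lb k α * rename (fun q : Fin (k + 1) × ι => (ro r q.1, q.2)) F) ≠ 0) (j : ι) :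
    (∀ l : Fin r, w (⟨(l : ℕ), by omega⟩, j) = α j l) ∧
      ∑ i : Fin (k + 1), w (ro r i, j) = c j := by
  classical
  rw [lb_eq, coeff_monomial_mul'] at hw
  by_cases hle : lM k α ≤ w
  · rw [if_pos hle, one_mul] at hw
    obtain ⟨u, hu, hu'⟩ := coeff_rename_ne_zero _ _ _ hw
    have h1 : ∀ q, w q = lM k α q + (Finsupp.mapDomain
        (fun q : Fin (k + 1) × ι => (ro r q.1, q.2)) u) q := by
      intro q
      have := hle q
      rw [hu, Finsupp.tsub_apply]
      omega
    refine ⟨fun l => ?_, ?_⟩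
    · rw [h1, lM_lt, Finsupp.mapDomain_notin_range, add_zero]
      rintro ⟨q, hq⟩
      simp only [Prod.mk.injEq, ro, Fin.mk.injEq] at hq
      have := l.2
      omega
    · rw [← hF.2 u hu' j]
      refine Finset.sum_congr rfl fun i _ => ?_
      rw [h1, lM_ro, zero_add]
      exact Finsupp.mapDomain_apply ro_inj u (i, j)
  · rw [if_neg hle] at hw
    exact absurd rfl hw

/-- One coefficient. -/
lemma coeff_labelled (α : ι → Fin r → ℕ) (F : MvPolynomial (Fin (k + 1) × ι) ℂ)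
    (w0 : Fin (k + 1) × ι →₀ ℕ) :
    coeff (lM k α + w0.mapDomain (fun q : Fin (k + 1) × ι => (ro r q.1, q.2)))
      (lb k α * rename (fun q : Fin (k + 1) × ι => (ro r q.1, q.2)) F) = coeff w0 F := by
  rw [lb_eq, coeff_monomial_mul, one_mul]
  exact coeff_rename_mapDomain _ ro_inj F w0

end lift

open scoped Classical in
/-- **(R1)** the lift with `r` label rows, from the minors. -/
theorem liftR_of (hMin : BL.MinR) : LiftR := by
  intro k r ι η _ _ s p g mu KS h1 hg hmono hs hp hc hM hinj0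
  choose m Ψ hm hΨ1 hΨ3 using fun x : {x // x ∈ KS} =>
    psiR (k := k) hMin g s p mu (fun j => (x.1 j).1) (fun j => (x.1 j).2) hmono
      (hs x.1 x.2) (hc x.1 x.2) (hM x.1 x.2) (hp x.1 x.2)
  let W := ∀ x : {x // x ∈ KS}, KK (k + 1) ι (fun j => (x.1 j).2) (ta mu)
  have hmem : ∀ c F, (∑ e ∈ St (Sum.elim s p),
      (sb (k + 1 + r) e (fun _ => 1)).toLinearMap ∘ₗ Ψ c) F
      ∈ PK (k + 1 + r) (ι ⊕ η) (Sum.elim s p) mu := by
    intro c F
    rw [LinearMap.sum_apply]
    exact sym_mem_PK (Sum.elim s p) mu (H := Ψ c F) (hΨ1 c F).1 (hΨ1 c F).2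
  let Λ : W →ₗ[ℂ] PK (k + 1 + r) (ι ⊕ η) (Sum.elim s p) mu := ∑ c : {x // x ∈ KS},
    ((∑ e ∈ St (Sum.elim s p), (sb (k + 1 + r) e (fun _ => 1)).toLinearMap ∘ₗ Ψ c).codRestrict
      (PK (k + 1 + r) (ι ⊕ η) (Sum.elim s p) mu) (hmem c)) ∘ₗ LinearMap.proj c
  have hΛ : ∀ y : W, ((Λ y : PK (k + 1 + r) (ι ⊕ η) (Sum.elim s p) mu) :
      MvPolynomial (Fin (k + 1 + r) × (ι ⊕ η)) ℂ) = ∑ c : {x // x ∈ KS},
        ∑ e ∈ St (Sum.elim s p), sb (k + 1 + r) e (fun _ => 1) (Ψ c (y c)) := by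
    intro y
    rw [LinearMap.sum_apply, Submodule.coe_sum]
    refine Finset.sum_congr rfl fun c _ => ?_
    have h7 : (∑ e ∈ St (Sum.elim s p),
        (sb (k + 1 + r) e (fun _ => 1)).toLinearMap ∘ₗ Ψ c) (y c) =
        ∑ e ∈ St (Sum.elim s p), sb (k + 1 + r) e (fun _ => 1) (Ψ c (y c)) := by
      rw [LinearMap.sum_apply]
      rfl
    rw [← h7]
    rfl
  -- the permutations split
  have hsplit : ∀ e ∈ St (Sum.elim s p), ∃ (τ : ι ≃ ι) (ρ : η ≃ η),
      (∀ x, e.symm x = Sum.map τ ρ x) ∧ (∀ j, s (τ j) = s j) ∧ ∀ h, g (ρ h) = g h := by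
    intro e he
    have he' : ∀ x, Sum.elim s p (e.symm x) = Sum.elim s p x := fun x => by
      have := mem_St.1 he (e.symm x)
      rw [Equiv.apply_symm_apply] at this
      exact this.symm
    obtain ⟨τ, ρ, h7⟩ := split_equiv e.symm (fun j => by
      rcases h : e.symm (Sum.inl j) with j' | h'
      · exact ⟨j', rfl⟩
      · exfalso
        have h8 := he' (Sum.inl j)
        rw [h, Sum.elim_inl, Sum.elim_inr] at h8
        have := h1 j h'
        omega) (fun x => by
      rcases h : e.symm (Sum.inr x) with j' | h'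
      · exfalso
        have h8 := he' (Sum.inr x)
        rw [h, Sum.elim_inl, Sum.elim_inr] at h8
        have := h1 j' x
        omega
      · exact ⟨h', rfl⟩)
    refine ⟨τ, ρ, h7, fun j => ?_, fun h => ?_⟩
    · have h8 := he' (Sum.inl j)
      rw [h7] at h8
      exact h8
    · have h8 := he' (Sum.inr h)
      rw [h7] at h8
      exact hg _ _ h8
  have hinj : Function.Injective Λ := by
    rw [← LinearMap.ker_eq_bot, LinearMap.ker_eq_bot']
    intro y hy
    have hy' := hΛ y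
    rw [hy, Submodule.coe_zero] at hy'
    funext c0
    apply Subtype.ext
    ext w1
    rw [Pi.zero_apply, Submodule.coe_zero, coeff_zero]
    by_contra hw
    set w : Fin (k + 1 + r) × ι →₀ ℕ := lM k (fun j => (c0.1 j).1) +
      w1.mapDomain (fun q : Fin (k + 1) × ι => (ro r q.1, q.2)) with hwdef
    have hwc : coeff w (lb k (fun j => (c0.1 j).1) *
        rename (fun q : Fin (k + 1) × ι => (ro r q.1, q.2))
          (y c0 : MvPolynomial (Fin (k + 1) × ι) ℂ)) =
        coeff w1 (y c0 : MvPolynomial (Fin (k + 1) × ι) ℂ) := coeff_labelled _ _ _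
    have hkey : ∀ (c : {x // x ∈ KS}) (e : Equiv.Perm (ι ⊕ η)), e ∈ St (Sum.elim s p) →
        coeff w (fr k g (sb (k + 1 + r) e (fun _ => 1) (Ψ c (y c)))) ≠ 0 →
        c = c0 ∧ coeff w (fr k g (sb (k + 1 + r) e (fun _ => 1) (Ψ c (y c)))) =
          m c0 * coeff w1 (y c0 : MvPolynomial (Fin (k + 1) × ι) ℂ) := by
      intro c e he hne
      obtain ⟨τ, ρ, h7, h8, h9⟩ := hsplit e he
      rw [fr_sb g e τ ρ h7 h9, hΨ3] at hne ⊢
      set Q := lb k (fun j => (c.1 j).1) * rename (fun q : Fin (k + 1) × ι => (ro r q.1, q.2))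
        (y c : MvPolynomial (Fin (k + 1) × ι) ℂ) with hQ
      have h10 : rename (fun q : Fin (k + 1 + r) × ι => (q.1, τ q.2)) ((m c : ℂ) • Q) =
          sb (k + 1 + r) τ.symm (fun _ => 1) ((m c : ℂ) • Q) := by
        rw [sb_equiv, Equiv.symm_symm]
      rw [h10, coeff_sb_equiv, coeff_smul, smul_eq_mul] at hne
      have h11 := labelled _ (y c).2 _ (right_ne_zero_of_mul hne)
      have hwne : coeff w (lb k (fun j => (c0.1 j).1) *
        rename (fun q : Fin (k + 1) × ι => (ro r q.1, q.2))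
          (y c0 : MvPolynomial (Fin (k + 1) × ι) ℂ)) ≠ 0 := by
        rw [hwc]
        exact hw
      have h12 := labelled _ (y c0).2 _ hwne
      have h13 : ∀ j, c.1 j = c0.1 (τ j) := by
        intro j
        refine Prod.ext (funext fun l => ?_) ?_
        · rw [← (h11 j).1 l, ← (h12 (τ j)).1 l, tr_apply, Equiv.symm_symm]
        · refine (h11 j).2.symm.trans (Eq.trans ?_ (h12 (τ j)).2)
          refine Finset.sum_congr rfl fun i _ => ?_
          rw [tr_apply, Equiv.symm_symm]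
      have h14 : ∀ j, τ j = j := by
        intro j
        by_contra h15
        exact hinj0 c.1 c.2 c0.1 c0.2 j (τ j) (h8 j).symm (Ne.symm h15) (h13 j)
      have h15 : c = c0 := by
        apply Subtype.ext
        funext j
        rw [h13 j, h14 j]
      refine ⟨h15, ?_⟩
      subst h15
      have h16 : (fun q : Fin (k + 1 + r) × ι => (q.1, τ q.2)) = id := by
        funext q
        rw [h14]
        rfl
      rw [h16, rename_id_apply, coeff_smul, smul_eq_mul, hQ, hwc]
    have h7 := congrArg (fun P => coeff w (fr k g P)) hy'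
    beta_reduce at h7
    rw [map_zero, coeff_zero, map_sum, coeff_sum, Finset.sum_eq_single c0] at h7
    · rw [map_sum, coeff_sum] at h7
      have h8 : ∀ e ∈ St (Sum.elim s p), coeff w (fr k g (sb (k + 1 + r) e (fun _ => 1)
          (Ψ c0 (y c0)))) =
          if coeff w (fr k g (sb (k + 1 + r) e (fun _ => 1) (Ψ c0 (y c0)))) = 0 then 0 else
              m c0 * coeff w1 (y c0 : MvPolynomial (Fin (k + 1) × ι) ℂ) := by
        intro e he
        split_ifs with h
        · exact h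
        · exact (hkey c0 e he h).2
      rw [Finset.sum_congr rfl h8, Finset.sum_ite, Finset.sum_const_zero, zero_add,
        Finset.sum_const, nsmul_eq_mul] at h7
      have hm0 : (m c0 : ℂ) ≠ 0 := Nat.cast_ne_zero.2 (hm c0)
      refine (mul_ne_zero ?_ (mul_ne_zero hm0 hw)) h7.symm
      rw [Nat.cast_ne_zero, ← Nat.pos_iff_ne_zero, Finset.card_pos]
      refine ⟨1, Finset.mem_filter.2 ⟨mem_St.2 fun x => rfl, ?_⟩⟩
      rw [fr_sb g 1 (Equiv.refl _) (Equiv.refl _) (fun x => by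
        rcases x with j | h <;> rfl) (fun h => rfl), hΨ3]
      have h16 : (fun q : Fin (k + 1 + r) × ι => (q.1, (Equiv.refl ι) q.2)) = id := by
        funext q
        rfl
      rw [h16, rename_id_apply, coeff_smul, smul_eq_mul, hwc]
      exact mul_ne_zero hm0 hw
    · intro c _ hc
      rw [map_sum, coeff_sum]
      refine Finset.sum_eq_zero fun e he => ?_
      by_contra h
      exact hc (hkey c e he h).1
    · intro h'
      exact absurd (Finset.mem_univ _) h'
  have hfr : Module.finrank ℂ W = ∑ x : {x // x ∈ KS},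
      Module.finrank ℂ (KK (k + 1) ι (fun j => (x.1 j).2) (ta mu)) := by
    rw [Module.finrank_pi_fintype]
  have h8 := LinearMap.finrank_le_finrank_of_injective hinj
  rw [hfr] at h8
  refine le_trans (le_of_eq ?_) h8
  exact (Finset.sum_coe_sort KS
    (fun x => Module.finrank ℂ (KK (k + 1) ι (fun j => (x j).2) (ta mu)))).symm

end Vale.Agent.P181.TR.H248
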