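import Vale.Agent.P181.TR.H248.Lift
import Vale.Agent.P181.BL.H118.MinR

set_option autoImplicit false

/-!
# P181, TR (R1): the lift with `r` label rows
-/

namespace Vale.Agent.P181.TR.H248

/-- **(R1)** -/
theorem liftR : LiftR := liftR_of BL.H118.minR

end Vale.Agent.P181.TR.H248
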